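import Vale.Agent.N300X.Ver
import Vale.Agent.P300LC.Main
import Vale.Agent.P300LJ.Gn
import Mathlib.RingTheory.Polynomial.Basic

/-!
# N300X: the cone over the elliptic curve and its equations
-/

set_option linter.all false

open scoped Manifold ContDiff Topology Matrix
open Set Filter Metric
open Vale.Agent.P272.K (Cm Chart At)
open Vale.Agent.P281Z Vale.Agent.P300L Vale.Agent.P300LH
open Vale.Agent.P280Z.Gp (Lifts)
open Vale.Agent.P277Z (at_chart)
open Vale.Agent.P300LZ (Surf Same lat)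
open Vale.Agent.P300LC (ev Pn Cn Par cf an_ev hom_ev fd_ev an_cf)
open MvPolynomial (homogeneousComponent)

noncomputable section

namespace Vale.Agent.N300X

section
variable {n N : ℕ} {X : Type} [TopologicalSpace X] [ChartedSpace (Cm n) X] {κ : Type}
  {O : κ → Set X} {s : κ → X → Cm N}

/-- the cone over `K`, with its vertex -/
def cn (O : κ → Set X) (s : κ → X → Cm N) (K : Set X) : Set (Cm N) :=
  {v | ∃ x ∈ K, ∃ b, x ∈ O b ∧ ∃ c : ℂ, v = c • s b x}

theorem cl_cn [CompactSpace X] (h : Lifts n O s) {K : Set X} (hK : IsClosed K) :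
    IsClosed (cn O s K) := by
  have a : IsClosed {p : X × Cm N | ∃ b, p.1 ∈ O b ∧ ∃ c : ℂ, p.2 = c • s b p.1} := by
    refine isOpen_compl_iff.1 (isOpen_iff_mem_nhds.2 fun p hp => ?_)
    obtain ⟨b, hb⟩ := h.cov p.1
    have t : ContinuousAt (fun q : X × Cm N => ![q.2, s b q.1]) p := continuousAt_pi.2 fun i => by
      fin_cases i
      · exact continuousAt_snd
      · exact (AnV.cont (h.hol b _ hb)).comp continuousAt_fst
    filter_upwards [t.eventually (LinearIndependent.eventually (linearIndependent_fin2.2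
      ⟨h.nz b _ hb, fun a e => hp ⟨b, hb, a, e.symm⟩⟩)),
      continuousAt_fst.eventually ((h.opn b).mem_nhds hb)] with q q1 q2 ⟨b', q3, c, q4⟩
    obtain ⟨c', e⟩ := h.chg b' b _ q3 q2
    exact (linearIndependent_fin2.1 q1).2 (c * c') (by
      rw [mul_smul]; exact (q4.trans (congrArg (c • ·) e)).symm)
  have b := isClosedMap_snd_of_compactSpace _ (a.inter (hK.preimage continuous_fst))
  refine (Set.ext fun v => ⟨?_, ?_⟩ : _ = cn O s K) ▸ b
  · rintro ⟨p, ⟨p1, p2⟩, rfl⟩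
    exact ⟨p.1, p2, p1⟩
  · rintro ⟨x, a, b⟩
    exact ⟨(x, v), ⟨b, a⟩, rfl⟩

end

/-- uniform degree for the equations of a cone -/
theorem ex_deg {n M : ℕ} {C : Set (Cm M)} (h : Cn n C) : ∃ k : ℕ, ∀ v ∈ C, ∀ (σ : Cm n → Cm M) u,
    Par C v σ u → ∀ κ, (¬ ∃ y, P300LC.df σ u y = κ) → ∃ G : Pn M, G.IsHomogeneous (k + 1) ∧
      (∀ x ∈ C, ev G x = 0) ∧ fderiv ℂ (ev G) v κ ≠ 0 := by
  let J : Ideal (Pn M) :=
    { carrier := {G | ∀ x ∈ C, ev G x = 0}
      add_mem' := fun {a b} ha hb x hx => by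
        have := ha x hx
        have := hb x hx
        simp_all [ev]
      zero_mem' := fun x _ => by simp [ev]
      smul_mem' := fun r a ha x hx => by
        have := ha x hx
        simp_all [ev] }
  obtain ⟨S, hS⟩ := IsNoetherian.noetherian J
  refine ⟨S.sup fun G => G.totalDegree, fun v hv σ u p κ hκ => ?_⟩
  by_contra! k
  refine hκ (h.jac hv p fun G hG => ?_)
  have m : G ∈ Submodule.span (Pn M) (S : Set (Pn M)) := by rw [hS]; exact hG
  have mul : ∀ a b : Pn M, fderiv ℂ (ev (a * b)) v κ =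
      ev a v * fderiv ℂ (ev b) v κ + ev b v * fderiv ℂ (ev a) v κ := fun a b => by
    have : ev (a * b) = ev a * ev b := funext fun _ => by simp [ev]
    rw [this, fderiv_mul (an_ev a v).differentiableAt (an_ev b v).differentiableAt]
    simp
  refine (Submodule.span_induction (p := fun G _ => ev G v = 0 ∧ fderiv ℂ (ev G) v κ = 0)
    (fun g hg => ?_) ⟨by simp [ev], by simp [fd_ev]⟩ (fun a b _ _ ha hb => ⟨?_, ?_⟩)
    (fun r a _ ha => ⟨?_, ?_⟩) m).2
  · have z : ∀ x ∈ C, ev g x = 0 := by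
      have : g ∈ J := hS ▸ Submodule.subset_span hg
      exact this
    refine ⟨z v hv, ?_⟩
    obtain ⟨i, hi⟩ := Function.ne_iff.1 fun e : v = 0 => h.zero (e ▸ hv)
    rw [fd_ev, ← g.sum_homogeneousComponent]
    simp only [map_sum, Finset.mul_sum]
    rw [Finset.sum_comm]
    refine Finset.sum_eq_zero fun j hj => ?_
    have le : j ≤ S.sup (fun G => G.totalDegree) + 1 := ((Nat.lt_succ_iff.1
      (Finset.mem_range.1 hj)).trans (Finset.le_sup (f := fun G : Pn M => G.totalDegree) hg)).trans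
      (Nat.le_succ _)
    have z' := h.hom z j hj
    have := k (MvPolynomial.X i ^ (S.sup (fun G => G.totalDegree) + 1 - j) *
      homogeneousComponent j g) (by
        simpa [Nat.sub_add_cancel le] using ((MvPolynomial.isHomogeneous_X ℂ i).pow
          (S.sup (fun G => G.totalDegree) + 1 - j)).mul (g.homogeneousComponent_isHomogeneous j))
      fun x hx => by rw [ev, map_mul, show MvPolynomial.eval x _ = 0 from z' x hx, mul_zero]
    rw [mul, z' v hv, zero_mul, add_zero, fd_ev] at this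
    exact (mul_eq_zero.1 this).resolve_left (by simpa [ev] using fun e => (hi e).elim)
  · have := ha.1
    have := hb.1
    simp_all [ev]
  · have h1 := ha.2
    have h2 := hb.2
    rw [fd_ev] at h1 h2 ⊢
    simp only [map_add, mul_add, Finset.sum_add_distrib, h1, h2, add_zero]
  · have := ha.1
    simp_all [ev]
  · rw [smul_eq_mul, mul, ha.1, ha.2, mul_zero, zero_mul, add_zero]

variable {τ : ℂ} (P : Surf τ)

theorem cmp_an {E : Type} [NormedAddCommGroup E] [NormedSpace ℂ E] {t : P.X.X → E} {z : ℂ}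
    (h : AnV 2 t (P.Φ z)) {e : Chart 2 P.X.X} (he : At e (P.Φ z)) :
    AnalyticAt ℂ (fun w => t (P.Φ w)) z ∧ HasDerivAt (fun w => t (P.Φ w))
      (fderiv ℂ (fun y => t (e.symm y)) (e (P.Φ z)) (deriv (fun w => e (P.Φ w)) z)) z := by
  have k : (fun y => t (e.symm y)) ∘ (fun w => e (P.Φ w)) =ᶠ[𝓝 z] fun w => t (P.Φ w) :=
    (P.cont.continuousAt.eventually (at_near he)).mono fun w hw => congrArg t hw.left_inv
  have a := (P.hol z e he).1
  exact ⟨(AnalyticAt.comp (f := fun w => e (P.Φ w)) (h e he) a).congr k,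
    (HasFDerivAt.comp_hasDerivAt (f := fun w => e (P.Φ w)) z (h e he).differentiableAt.hasFDerivAt
      a.differentiableAt.hasDerivAt).congr_of_eventuallyEq k.symm⟩

/-- the cone over the elliptic curve -/
def cE : Set (Cm P.N₁) := {v | v ≠ 0 ∧ v ∈ cn P.O P.s₁ (range P.Φ)}

theorem mem_cE {b : P.κ} {z : ℂ} (h : P.Φ z ∈ P.O b) {c : ℂ} (hc : c ≠ 0) :
    c • P.s₁ b (P.Φ z) ∈ cE P :=
  ⟨smul_ne_zero hc (P.l₁.nz b _ h), _, ⟨z, rfl⟩, b, h, c, rfl⟩

theorem con_cE : IsPreconnected (cE P) := by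
  refine isPreconnected_of_forall_constant fun f hf => ?_
  choose b hb using fun z => P.l₁.cov (P.Φ z)
  have a : ∀ b' z (c : ℂ), P.Φ z ∈ P.O b' → c ≠ 0 →
      f (c • P.s₁ b' (P.Φ z)) = f (P.s₁ (b z) (P.Φ z)) := fun b' z c h hc => by
    obtain ⟨c', e⟩ := P.l₁.chg _ _ _ h (hb z)
    have c0 : c' ≠ 0 := fun k => P.l₁.nz _ _ h (by rw [e, k, zero_smul])
    rw [e, smul_smul]
    conv_rhs => rw [← one_smul ℂ (P.s₁ (b z) (P.Φ z))]
    exact (isConnected_compl_singleton_of_one_lt_rank (E := ℂ) (by simp) 0).2.constant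
      (f := fun a : ℂ => f (a • P.s₁ (b z) (P.Φ z))) (hf.comp (by fun_prop) fun a ha =>
        mem_cE P (hb z) ha) (mul_ne_zero hc c0) one_ne_zero
  have k : Continuous fun z => f (P.s₁ (b z) (P.Φ z)) := continuous_iff_continuousAt.2 fun z => by
    have o := P.cont.continuousAt.eventually ((P.l₁.opn (b z)).mem_nhds (hb z))
    have m : ∀ w, P.Φ w ∈ P.O (b z) → P.s₁ (b z) (P.Φ w) ∈ cE P := fun w hw =>
      one_smul ℂ (P.s₁ (b z) (P.Φ w)) ▸ mem_cE P hw one_ne_zero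
    refine ContinuousAt.congr (f := f ∘ fun w => P.s₁ (b z) (P.Φ w)) ((hf _ (m z (hb z))).tendsto.comp
      (tendsto_nhdsWithin_iff.2 ⟨(cmp_an P (P.l₁.hol _ _ (hb z)) (at_chart _)).1.continuousAt,
        o.mono m⟩)) (o.mono fun w hw => ?_)
    exact (congrArg f (one_smul ℂ _)).symm.trans (a _ w 1 hw one_ne_zero)
  rintro _ ⟨v0, _, ⟨z, rfl⟩, c, hc, r, rfl⟩ _ ⟨w0, _, ⟨z', rfl⟩, c', hc', r', rfl⟩
  rw [a _ _ _ hc (left_ne_zero_of_smul v0), a _ _ _ hc' (left_ne_zero_of_smul w0)]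
  exact PreconnectedSpace.constant inferInstance k

theorem df_cE {b : P.κ} {z : ℂ} (h : P.Φ z ∈ P.O b) (a : ℂ) {e : Chart 2 P.X.X}
    (he : At e (P.Φ z)) (y : ℂ × Cm 1) :
    P300LC.df (fun y : Cm 1 => a • P.s₁ b (P.Φ (y 0))) (fun _ => z) y = a • (y.1 • P.s₁ b (P.Φ z) +
      dv (P.s₁ b) e (P.Φ z) (y.2 0 • deriv (fun w => e (P.Φ w)) z)) := by
  have d := ((cmp_an P (P.l₁.hol _ _ h) he).2.hasFDerivAt.comp (fun _ : Fin 1 => z)
    (ContinuousLinearMap.proj (0 : Fin 1) : Cm 1 →L[ℂ] ℂ).hasFDerivAt).const_smul a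
  have := (hasFDerivAt_fst.smul (HasFDerivAt.comp (f := Prod.snd) ((1 : ℂ), fun _ : Fin 1 => z)
    d hasFDerivAt_snd)).fderiv
  refine (DFunLike.congr_fun this y).trans ?_
  simp [dv, smul_add, smul_comm a, add_comm]

variable {R : ℝ} (hτ : ∀ z, ∃ g, ‖z + lat τ g‖ ≤ R)
include hτ

theorem par_cE {b : P.κ} {z : ℂ} (h : P.Φ z ∈ P.O b) {a : ℂ} (a0 : a ≠ 0) :
    Par (cE P) (a • P.s₁ b (P.Φ z)) (fun y : Cm 1 => a • P.s₁ b (P.Φ (y 0))) fun _ => z := by
  have he := at_chart (n := 2) (P.Φ z)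
  have an := (cmp_an P (P.l₁.hol _ _ h) he).1
  have an2 : AnalyticAt ℂ (fun y : Cm 1 => a • P.s₁ b (P.Φ (y 0))) fun _ => z :=
    (analyticAt_const (v := a)).smul (AnalyticAt.comp (f := fun y : Cm 1 => y 0) (x := fun _ => z) an
      ((ContinuousLinearMap.proj (0 : Fin 1) : Cm 1 →L[ℂ] ℂ).analyticAt _))
  have o := P.cont.continuousAt.eventually ((P.l₁.opn b).mem_nhds h)
  refine ⟨an2, rfl, (injective_iff_map_eq_zero _).2 fun y hy => ?_,
    le_antisymm (tendsto_nhdsWithin_iff.2 ⟨?_, ?_⟩) fun T hT => ?_⟩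
  · rw [df_cE P h a he, smul_eq_zero_iff_right a0] at hy
    have y2 := P.l₁.imm b _ h _ he _ (-y.1) (by rw [neg_smul]; exact eq_neg_of_add_eq_zero_right hy)
    rw [y2, dv, map_zero, add_zero] at hy
    exact Prod.ext ((smul_eq_zero_iff_left (P.l₁.nz b _ h)).1 hy) (funext fun i => by
      rw [Subsingleton.elim i 0]
      exact (smul_eq_zero_iff_left (P.hol z _ he).2).1 y2)
  · exact (an_cf an2 1).continuousAt.tendsto.mono_right (le_of_eq (congrArg 𝓝 (one_smul ℂ _)))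
  · filter_upwards [continuousAt_fst.eventually_ne (one_ne_zero (α := ℂ)), continuousAt_snd.eventually
      (((continuous_apply (0 : Fin 1)).tendsto fun _ : Fin 1 => z).eventually o)]
      with p p1 p2
    exact mem_of_eq_of_mem (smul_smul p.1 a _) (mem_cE P p2 (mul_ne_zero p1 a0))
  obtain ⟨j, hj⟩ := Function.ne_iff.1 (smul_ne_zero a0 (P.l₁.nz b _ h))
  have c1 : ContinuousAt (fun w => a * P.s₁ b (P.Φ w) j) z :=
    continuousAt_const.mul ((continuous_apply j).continuousAt.comp an.continuousAt)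
  have c2 : Tendsto (fun q : Cm P.N₁ × ℂ => (q.1 j / (a * P.s₁ b (P.Φ q.2) j), fun _ : Fin 1 => q.2))
      (𝓝 (a • P.s₁ b (P.Φ z), z)) (𝓝 (1, fun _ => z)) := by
    refine Tendsto.prodMk_nhds ?_ (continuousAt_pi.2 fun _ => continuousAt_snd)
    rw [← div_self hj]
    exact ((continuous_apply j).continuousAt.comp continuousAt_fst).div
      (ContinuousAt.comp (f := Prod.snd) (x := (a • P.s₁ b (P.Φ z), z)) c1 continuousAt_snd) hj
  obtain ⟨V, hV, W, hW, sub⟩ := mem_nhds_prod_iff.1 (c2 (mem_map.1 hT))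
  obtain ⟨W', w1, w2, w3⟩ := _root_.mem_nhds_iff.1 (inter_mem hW (o.and (c1.eventually_ne hj)))
  have oo : IsOpen (⋃ g, (fun w => w + lat τ g) ⁻¹' W') :=
    isOpen_iUnion fun g => w2.preimage (by fun_prop)
  have cl := cl_cn P.l₁ (((isCompact_closedBall (0 : ℂ) R).diff oo).image P.cont).isClosed
  have nv : a • P.s₁ b (P.Φ z) ∉
      cn P.O P.s₁ (P.Φ '' (closedBall 0 R \ ⋃ g, (fun w => w + lat τ g) ⁻¹' W')) := by
    rintro ⟨_, ⟨w, ⟨-, hw⟩, rfl⟩, b', hb', c, e⟩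
    obtain ⟨g, rfl⟩ := (P.inj w z).1 (P.l₁.inj _ _ _ _ h hb' ⟨a⁻¹ * c, by
      rw [mul_smul, ← e, inv_smul_smul₀ a0]⟩).symm
    exact hw (mem_iUnion.2 ⟨g, w3⟩)
  filter_upwards [self_mem_nhdsWithin, mem_nhdsWithin_of_mem_nhds hV, mem_nhdsWithin_of_mem_nhds
    (cl.isOpen_compl.mem_nhds nv)]
  rintro _ ⟨-, _, ⟨w, rfl⟩, b', hb', c, rfl⟩ v1 v2
  obtain ⟨g, hg⟩ := hτ w
  have e1 := (P.inj w _).2 ⟨g, rfl⟩
  obtain ⟨g', m⟩ := mem_iUnion.1 (by_contra fun m => v2 ⟨_, ⟨_, ⟨mem_closedBall_zero_iff.2 hg, m⟩,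
    e1.symm⟩, b', hb', c, rfl⟩ : w + lat τ g ∈ ⋃ g, (fun w => w + lat τ g) ⁻¹' W')
  have e2 := e1.trans ((P.inj _ _).2 ⟨g', rfl⟩)
  obtain ⟨m1, m2, m3⟩ := w1 m
  rw [e2] at hb' v1 ⊢
  obtain ⟨c', e3⟩ := P.l₁.chg _ _ _ hb' m2
  have := sub (mk_mem_prod v1 m1)
  simp only [mem_preimage, cf, e3, smul_smul, Pi.smul_apply, smul_eq_mul] at this
  rw [mul_div_mul_right _ _ (right_ne_zero_of_mul m3), div_mul_cancel₀ _ a0] at this
  rwa [e3, smul_smul]

theorem cn_cE : Cn 1 (cE P) := by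
  refine ⟨fun h => h.1 rfl, ?_, ?_, con_cE P, ?_⟩
  · rintro _ ⟨v0, _, ⟨z, rfl⟩, b, hb, c, rfl⟩ s hs
    rw [smul_smul]
    exact mem_cE P hb (mul_ne_zero hs (left_ne_zero_of_smul v0))
  · have k : range P.Φ = P.Φ '' closedBall 0 R := Subset.antisymm (range_subset_iff.2 fun z =>
      (hτ z).elim fun g hg => ⟨_, mem_closedBall_zero_iff.2 hg, ((P.inj z _).2 ⟨g, rfl⟩).symm⟩)
      (image_subset_range _ _)
    obtain ⟨b, hb⟩ := P.l₁.cov (P.Φ 0)
    have : insert 0 (cE P) = cn P.O P.s₁ (range P.Φ) := Set.ext fun v =>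
      ⟨fun h => h.elim (fun e => ⟨_, ⟨0, rfl⟩, b, hb, 0, e.trans (zero_smul _ _).symm⟩) And.right,
        fun h => or_iff_not_imp_left.2 fun e => ⟨e, h⟩⟩
    rw [this]
    exact cl_cn P.l₁ (k ▸ ((isCompact_closedBall _ _).image P.cont).isClosed)
  · rintro _ ⟨v0, _, ⟨z, rfl⟩, b, hb, c, rfl⟩
    exact ⟨_, _, par_cE P hτ hb (left_ne_zero_of_smul v0)⟩

theorem ex_r4 : ∃ k, R4 (ver P k) := by
  obtain ⟨k, hk⟩ := ex_deg (cn_cE P hτ)
  refine ⟨k, fun b z e (hb : P.Φ z ∈ P.O b) (he : At e (P.Φ z)) => ?_⟩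
  have p := par_cE P hτ hb one_ne_zero
  obtain ⟨i, hi⟩ : ∃ i : Fin 2, ¬ ∃ y, P300LC.df (fun y : Cm 1 => (1 : ℂ) • P.s₁ b (P.Φ (y 0)))
      (fun _ => z) y = dv (P.s₁ b) e (P.Φ z) (Pi.single i 1) := by
    by_contra! k
    have k' : ∀ i : Fin 2, ∃ r : ℂ, Pi.single i 1 = r • deriv (fun w => e (P.Φ w)) z := fun i => by
      obtain ⟨y, hy⟩ := k i
      rw [df_cE P hb 1 he, one_smul] at hy
      exact ⟨y.2 0, sub_eq_zero.1 (P.l₁.imm b _ hb e he _ y.1 (by
        rw [map_sub]; exact sub_eq_iff_eq_add.2 hy.symm))⟩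
    obtain ⟨r, hr⟩ := k' 0
    obtain ⟨r', hr'⟩ := k' 1
    have a1 := congrFun hr 0
    have a2 := congrFun hr 1
    have a3 := congrFun hr' 1
    simp at a1 a2 a3
    rcases a2 with a2 | a2 <;> simp [a2] at a1 a3
  obtain ⟨G, g1, g2, g3⟩ := hk _ (mem_cE P hb one_ne_zero) _ _ p _ hi
  obtain ⟨t, ht⟩ := ex_form _ G g1
  refine ⟨t, i, fun c w hw => (ht _).trans (g2 _ (one_smul ℂ (P.s₁ c (P.Φ w)) ▸
    mem_cE P hw one_ne_zero)), fun h0 => g3 ?_⟩
  have a1 := (P.l₁.hol b _ hb e he).differentiableAt.hasFDerivAt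
  have a2 := ((ver P k).l₁.hol b _ hb e he).differentiableAt.hasFDerivAt
  have a3 := (LinearMap.toContinuousLinearMap (dotProductBilin ℂ ℂ t)).hasFDerivAt.comp _ a2
  have a4 := HasFDerivAt.comp (f := fun y => P.s₁ b (e.symm y)) (e (P.Φ z))
    (an_ev G (P.s₁ b (e.symm (e (P.Φ z))))).differentiableAt.hasFDerivAt a1
  have a5 := DFunLike.congr_fun (a4.unique (a3.congr_of_eventuallyEq
    (.of_forall fun y => (ht _).symm))) (Pi.single i 1)
  rw [he.left_inv] at a5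
  rw [one_smul]
  exact a5.trans h0

end Vale.Agent.N300X
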