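import Vale.Agent.P300LS.Defs

open scoped Manifold ContDiff

namespace Vale.Agent.N300X

open Vale.Agent.P300

variable (E : Type) [NormedAddCommGroup E] [NormedSpace ℂ E]

/-- `X` is (the complex manifold of) a smooth connected projective variety modelled on `E`. -/
def IsVariety (X : Type) [TopologicalSpace X] [ChartedSpace E X] : Prop :=
  IsManifold 𝓘(ℂ, E) ω X ∧ T2Space X ∧ CompactSpace X ∧ ConnectedSpace X ∧
    Final.IsNonsingularProjective E X

/-- Every holomorphic map from a compact connected Riemann surface to `V` is constant. -/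
def NoCompactCurve (V : Type) [TopologicalSpace V] [ChartedSpace E V] : Prop :=
  ∀ (C : Type) (_ : TopologicalSpace C) (_ : ChartedSpace ℂ C), IsManifold 𝓘(ℂ) ω C →
    CompactSpace C → ConnectedSpace C → ∀ f : C → V, ContMDiff 𝓘(ℂ) 𝓘(ℂ, E) ω f →
      ∀ a b, f a = f b

/-- `Φ : ℂ² → V` is a holomorphic immersion whose image lies in no compact set, all holomorphic
functions on `V` are constant on the image, and `p ∘ Φ` induces an injective map of the abelian
surface `ℂ / (ℤ + ℤ i) × ℂ / (ℤ + ℤ √2 i)` to `X`. -/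
def IsFlatPlane {V X : Type} [TopologicalSpace V] [ChartedSpace E V] (p : V → X)
    (Φ : ℂ × ℂ → V) : Prop :=
  ContMDiff 𝓘(ℂ, ℂ × ℂ) 𝓘(ℂ, E) ω Φ ∧
    (∀ z, Function.Injective (mfderiv 𝓘(ℂ, ℂ × ℂ) 𝓘(ℂ, E) Φ z)) ∧
    (∀ K : Set V, IsCompact K → ¬ Set.range Φ ⊆ K) ∧
    (∀ g : V → ℂ, ContMDiff 𝓘(ℂ, E) 𝓘(ℂ) ω g → ∀ z w, g (Φ z) = g (Φ w)) ∧
    ∀ z w, p (Φ z) = p (Φ w) ↔
      ∃ a b c d : ℤ, w = z + (a + b * Complex.I, c + d * ((√2 : ℝ) * Complex.I))

end Vale.Agent.N300X
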