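import Vale.Agent.N300X.Gen
import Vale.Agent.P300L.Fin

/-!
# N300X: the construction in every dimension `n ≥ 4`
-/

set_option linter.all false

open scoped Manifold ContDiff Topology Matrix
open Set Filter Function
open Vale.Agent.P272.K (Cm Chart At)
open Vale.Agent.P272.K.Prod (fstP sndP glue contDiff_glue)
open Vale.Agent.P281Z Vale.Agent.P300L Vale.Agent.P300LH Vale.Agent.P300LJ Vale.Agent.P300LN
open Vale.Agent.P277Z (Hol at_chart)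
open Vale.Agent.P300LZ (Surf lat)

noncomputable section

namespace Vale.Agent.N300X

theorem dv_prod {n p N M : ℕ} {V : Mf n} {W : Mf p} {κ κ' : Type} {O : κ → Set V.X}
    {O' : κ' → Set W.X} {a : κ → V.X → Cm N} {a' : κ' → W.X → Cm M} (l : Lo n O a) (l' : Lo p O' a')
    {c : κ} {c' : κ'} {x : V.X} {y : W.X} (h : x ∈ O c) (h' : y ∈ O' c') {e : Chart n V.X}
    {e' : Chart p W.X} (he : At e x) (he' : At e' y) (v : Cm (n + p)) :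
    dv (X := (V.prod W).X) (fun s => kr (a c s.1) (a' c' s.2)) (V.pc W e e') (x, y) v =
      kr (dv (a c) e x (fstP v)) (a' c' y) + kr (a c x) (dv (a' c') e' y (sndP v)) :=
  (dv_kr (X := (V.prod W).X) (a := fun s => a c s.1) (a' := fun s => a' c' s.2) (at_prod he he')
    ((lo_fst l l').hol (c, c') (x, y) ⟨h, h'⟩) ((lo_snd l l').hol (c, c') (x, y) ⟨h, h'⟩) v).trans
    (congrArg₂ (fun u v => kr u (a' c' y) + kr (a c x) v)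
      (dv_fst (x := (x, y)) e' (l.hol _ _ h e he) v) (dv_snd (x := (x, y)) e (l'.hol _ _ h' e' he') v))

theorem nm_pk {τ τ' : ℂ} {P : Surf τ} {Q : Surf τ'} (hP : R4 P) (hQ : R4 Q) :
    Nm (pk P Q) fun z => (P.Φ z.1, Q.Φ z.2) := by
  refine ⟨?_, fun z E hE => ?_, fun c z h => ?_, fun c z E h hE => ?_⟩
  · rintro ⟨_, _⟩ ⟨⟨z, rfl⟩, ⟨w, rfl⟩⟩
    exact ⟨(z, w), rfl⟩
  · obtain ⟨e, e', rfl, he, he'⟩ := at_prod_dec hE
    exact (contDiff_glue (an1 (P.hol z.1 e he).1).contDiffAt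
      (an2 (Q.hol z.2 e' he').1).contDiffAt).analyticAt
  · exact (an1 (cmp_an P (P.μhol _ _ h.1).1 (at_chart _)).1).mul
      (an2 (cmp_an Q (Q.μhol _ _ h.2).1 (at_chart _)).1)
  obtain ⟨e, e', rfl, he, he'⟩ := at_prod_dec hE
  obtain ⟨t, i, t0, t1⟩ := hP c.1 z.1 e h.1 he
  obtain ⟨t', i', t0', t1'⟩ := hQ c.2 z.2 e' h.2 he'
  obtain ⟨u, hu⟩ := sep0 (P.l₁.nz _ _ h.1)
  obtain ⟨u', hu'⟩ := sep0 (Q.l₁.nz _ _ h.2)
  have k : ∀ (a : Cm P.N₁) (a' : Cm Q.N₁) v, kr a a' ⬝ᵥ dv ((pk P Q).s₁ c) (P.X.pc Q.X e e')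
      (P.Φ z.1, Q.Φ z.2) v = a ⬝ᵥ dv (P.s₁ c.1) e (P.Φ z.1) (fstP v) * a' ⬝ᵥ Q.s₁ c.2 (Q.Φ z.2) +
        a ⬝ᵥ P.s₁ c.1 (P.Φ z.1) * a' ⬝ᵥ dv (Q.s₁ c.2) e' (Q.Φ z.2) (sndP v) := fun a a' v => by
    refine (congrArg (kr a a' ⬝ᵥ ·) (dv_prod (lo_of P.l₁) (lo_of Q.l₁) h.1 h.2 he he' v)).trans ?_
    simp only [dotProduct_add, kr_dot]
  have f1 : fstP (Pi.single (Fin.castAdd 2 i) (1 : ℂ) : Cm (2 + 2)) = Pi.single i 1 := by
    funext j; fin_cases i <;> fin_cases j <;> rfl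
  have f2 : sndP (Pi.single (Fin.castAdd 2 i) (1 : ℂ) : Cm (2 + 2)) = 0 := by
    funext j; fin_cases i <;> fin_cases j <;> rfl
  have f3 : sndP (Pi.single (Fin.natAdd 2 i') (1 : ℂ) : Cm (2 + 2)) = Pi.single i' 1 := by
    funext j; fin_cases i' <;> fin_cases j <;> rfl
  refine ⟨Fin.castAdd 2 i, Fin.natAdd 2 i', kr t u', kr u t', ?_, (k _ _ _).trans_ne ?_,
    (k _ _ _).trans ?_, (k _ _ _).trans_ne ?_⟩
  · rintro c ⟨_, _⟩ ⟨⟨z, rfl⟩, ⟨w, rfl⟩⟩ hc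
    exact ⟨(kr_dot _ _ _ _).trans (mul_eq_zero_of_left (t0 _ z hc.1) _),
      (kr_dot _ _ _ _).trans (mul_eq_zero_of_right _ (t0' _ w hc.2))⟩
  · rwa [f1, hu', t0 _ _ h.1, mul_one, zero_mul, add_zero]
  · rw [f2, t0' _ _ h.2, dv, dv, map_zero, dotProduct_zero, mul_zero, mul_zero, add_zero]
  · rwa [f3, hu, t0' _ _ h.2, mul_zero, zero_add, one_mul]

theorem end4 {β m n : ℕ} (hm : m + 3 ≤ 2 + 2 + β + β) (P : Surf Complex.I) (Q : Surf t₂) (T : Tor β)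
    (p₁ : Cm ((pk P Q).N₁ * T.M) →L[ℂ] Cm m) (p₂ : Cm ((pk P Q).N₂ * T.M) →L[ℂ] Cm m)
    (pre : (jo (pk P Q) T p₁ p₂).Pre) (gen : (jo (pk P Q) T p₁ p₂).Gen)
    (fit : Fit (pk P Q) T (T.π 0) p₁ p₂) (Y : Mf n) (i : Y.X → (jo (pk P Q) T p₁ p₂).S.X)
    (lam : (jo (pk P Q) T p₁ p₂).κ → Y.X → ℂ)
    (e : Emb n (2 + 2 + β + β) i (connectedComponentIn (jo (pk P Q) T p₁ p₂).Z
      (((P.Φ 0, Q.Φ 0), T.π 0), T.π 0))) (s : (jo (pk P Q) T p₁ p₂).Sec i lam)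
    (o : ∀ y, (jo (pk P Q) T p₁ p₂).On (i y) fun b => lam b y) :
    Nonempty (End (Fin n → ℂ) Y.X) := by
  have j1 : HolM 2 (2 + 2) fun w : Cm 2 => P.X.pair Q.X (P.Φ (w 0)) (Q.Φ (w 1)) := fun w =>
    (phi_an P 0 w).pair (phi_an Q 1 w)
  have j2 := j1.pair (V := P.X.prod Q.X) (holM_const (T.π 0))
  have j3 := j2.pair (V := (P.X.prod Q.X).prod T.B) (holM_const (T.π 0))
  obtain ⟨f, f1, f2⟩ := e.lift j3 fun w => (isPreconnected_range j3.cont).subset_connectedComponentIn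
    ⟨0, rfl⟩ (range_subset_iff.2 fun w => mem_Z fit ⟨⟨_, rfl⟩, ⟨_, rfl⟩⟩) ⟨w, rfl⟩
  have f3 : ∀ w, Imm 2 n f w := fun w => .of_comp (e.hol.at _) (f1.at w) (funext f2 ▸
    ((((imm_pair (phi_an P 0 w) (phi_an Q 1 w) (at_chart _) (at_chart _) (at_chart _)).2
      fun v a b => funext (Fin.forall_fin_two.2 ⟨phi_df P 0 w v a, phi_df Q 1 w v b⟩)).pair_left
        (j1.at w) ((holM_const _).at w)).pair_left (j2.at w) ((holM_const _).at w)))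
  let L := (ContinuousLinearEquiv.finTwoArrow ℂ ℂ).symm
  have f4 : ∀ z, i ((f ∘ L) z) = (((P.Φ z.1, Q.Φ z.2), T.π 0), T.π 0) := fun z => f2 (L z)
  have per := P300LE.end_per P300LK.push hm pre gen fit e f4
  have inj := P300LE.end_inj pre gen fit e.hol.cont s o f4
  have q1 : HolM n β fun y => (i y).1.2 := (hol_p2 (V := P.X.prod Q.X)).comp
    ((hol_p1 (V := (P.X.prod Q.X).prod T.B)).comp e.hol)
  have q2 : HolM n β fun y => (i y).2 := (hol_p2 (V := (P.X.prod Q.X).prod T.B)).comp e.hol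
  obtain ⟨a, ha⟩ := DFunLike.ne_iff.1 P.φne
  obtain ⟨b, hb⟩ := DFunLike.ne_iff.1 Q.φne
  have an : ∀ {h : T.B.X → Cm β} {x}, (∀ a, Hol β (fun y => h y a) x) → HolA β β h x :=
    fun k => .of_hol (AnV.pi k).cont (at_chart _) k
  refine ⟨{
    Ψ := f ∘ L
    hol := ContMDiff.comp f1 L.contDiff.contMDiff
    imm := fun z => mf_inj L (f1.at _) (f3 _)
    eq := fun z z' => ?_
    φ := phi P Q
    ne1 := ⟨a, by simpa [phi] using ha⟩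
    ne2 := ⟨b, by simpa [phi] using hb⟩
    per := per
    inj := inj
    F := Cm β × Cm β
    T := T.B.X × T.B.X
    pr := Prod.map T.π T.π
    cov := cov_prod T.cov T.cov
    tr := fun x x' u k => Prod.ext (T.tr _ _ _ (congrArg Prod.fst k))
      (T.tr _ _ _ (congrArg Prod.snd k))
    q := fun y => ((i y).1.2, (i y).2)
    qc := q1.cont.prodMk q2.cont
    loc := fun y => ?_
    fib := fun y y' k => ?_ }⟩
  · rw [← e.inj.eq_iff, f4, f4]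
    refine ⟨fun k => ?_, fun ⟨g, k⟩ => ?_⟩
    · obtain ⟨g, hg⟩ := (P.inj _ _).1 (congrArg (fun x => x.1.1.1) k)
      obtain ⟨g', hg'⟩ := (Q.inj _ _).1 (congrArg (fun x => x.1.1.2) k)
      exact ⟨(g, g'), Prod.ext hg hg'⟩
    · rw [(P.inj z.1 z'.1).2 ⟨g.1, congrArg Prod.fst k⟩, (Q.inj z.2 z'.2).2 ⟨g.2, congrArg Prod.snd k⟩]
  · obtain ⟨h1, a1, a2⟩ := T.loc (i y).1.2
    obtain ⟨h2, b1, b2⟩ := T.loc (i y).2
    refine ⟨fun y => (h1 (i y).1.2, h2 (i y).2), (HolA.cmp (f := fun y => (i y).1.2) (x := y) (an a1)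
      (q1.at y)).prodMk_space (HolA.cmp (f := fun y => (i y).2) (x := y) (an b1) (q2.at y)), ?_⟩
    filter_upwards [(q1.at y).cont a2, (q2.at y).cont b2] with y' h1 h2 using Prod.ext h1 h2
  · have k1 : (i y).1.2 = (i y').1.2 := (Prod.mk.inj k).1
    have k2 : (i y).2 = (i y').2 := (Prod.mk.inj k).2
    have m : ∀ y, i y ∈ (jo (pk P Q) T p₁ p₂).Z := fun y =>
      connectedComponentIn_subset _ _ (e.mem y)
    have r : ∀ y, (i y).1.1 ∈ (pk P Q).A → (i y).1.2 = T.π 0 → (i y).2 = T.π 0 →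
        y ∈ range (f ∘ L) := fun y ⟨⟨u, hu⟩, ⟨v, hv⟩⟩ h1 h2 => ⟨(u, v), e.inj ((f4 _).trans
          (Prod.ext (Prod.ext (Prod.ext hu hv) h1.symm) h2.symm))⟩
    refine (fit.fib (i y).1.1 (i y').1.1 (i y).1.2 (i y).2 (m y) (k1 ▸ k2 ▸ m y')).imp
      (fun c => e.inj (Prod.ext (Prod.ext c k1) k2)) fun c =>
        ⟨r y c.1 c.2.2.1 c.2.2.2, r y' c.2.1 (k1 ▸ c.2.2.1) (k2 ▸ c.2.2.2)⟩

theorem ex_surf : (∃ P : Surf Complex.I, R4 P) ∧ ∃ Q : Surf t₂, R4 Q := by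
  obtain ⟨⟨P⟩, ⟨Q⟩⟩ := surf_of P300LT.even P300LA.build P300LB.pos P300LK.two P300LX.dive
    P300LX.div1 P300LX.tri P300LR.four P300LO.for_ P300LG.clu P300LQ.pol
    (P300LG.wind_of P300LQ.pol)
  obtain ⟨k, hk⟩ := ex_r4 P (R := 3) fun z => (ex_dom (z, 0)).elim fun g hg =>
    ⟨g.1, (norm_fst_le (((z, 0) : ℂ × ℂ) + vec g)).trans hg⟩
  obtain ⟨k', hk'⟩ := ex_r4 Q (R := 3) fun z => (ex_dom (0, z)).elim fun g hg =>
    ⟨g.2, (norm_snd_le (((0, z) : ℂ × ℂ) + vec g)).trans hg⟩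
  exact ⟨⟨_, hk⟩, _, hk'⟩

/-- the variety of dimension `n` -/
theorem core4 {n : ℕ} (hn : 4 ≤ n) : ∃ Y : Mf n, ConnectedSpace Y.X ∧
    P300.Final.IsNonsingularProjective (Fin n → ℂ) Y.X ∧ Nonempty (End (Fin n → ℂ) Y.X) := by
  obtain ⟨⟨P, hP⟩, Q, hQ⟩ := ex_surf
  obtain ⟨T⟩ := P300LR.tor (n + 1)
  have ok := prd _ _ P Q
  obtain ⟨p₁, p₂, g, f⟩ := gen4 (m := n + 7) (T := T) (b₀ := T.π 0) ok (nm_pk hP hQ) (by omega)
    (by omega) (by omega) (by omega)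
  have pre := seg _ _ _ (pk P Q) T p₁ p₂ ok
  obtain ⟨Y, i, lam, c, e, s, o⟩ := ymf _ (n + 7) n (jo (pk P Q) T p₁ p₂) (by omega) pre g _
    (mem_Z f (a := (P.Φ 0, Q.Φ 0)) ⟨⟨0, rfl⟩, ⟨0, rfl⟩⟩)
  obtain ⟨N, Φ, k1, k2⟩ := P300LR.prj _ _ _ _ _ _ _ Y i _ pre.lf e inferInstance
  exact ⟨Y, c, P300LC.chow n N Y.X Φ k1 k2, end4 (by omega) P Q T p₁ p₂ pre g f Y i lam e s o⟩

end Vale.Agent.N300X
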