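import Vale.Agent.P300LJ.Gen
import Vale.Agent.N300X.Cone

/-!
# N300X: the generic choice with a sharp count along the abelian surface
-/

set_option linter.all false

open scoped Manifold ContDiff Topology Matrix
open Set Filter Function
open Vale.Agent.P272.K (Cm Chart At)
open Vale.Agent.P272.K.Prod (fstP sndP glue fstP_glue sndP_glue)
open Vale.Agent.P281Z Vale.Agent.P300L Vale.Agent.P300LH Vale.Agent.P300LJ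
open Vale.Agent.P277Z (trans_an at_chart)
open Vale.Agent.P300LZ (Surf)

noncomputable section

namespace Vale.Agent.N300X

variable {d β m : ℕ} {P : Pk d} {T : Tor β} {b₀ : T.B.X}

/-- `A` is parametrised by the plane and cut out by hyperplanes to the first order -/
structure Nm (P : Pk d) (α : ℂ × ℂ → P.X.X) : Prop where
  rng : ∀ a ∈ P.A, ∃ z, α z = a
  hol : ∀ z (e : Chart d P.X.X), At e (α z) → AnalyticAt ℂ (fun w => e (α w)) z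
  mu : ∀ c z, α z ∈ P.O c → AnalyticAt ℂ (fun w => P.μ c (α w)) z
  r4 : ∀ c z (e : Chart d P.X.X), α z ∈ P.O c → At e (α z) → ∃ (i i' : Fin d) (t t' : Cm P.N₁),
    (∀ c, ∀ a ∈ P.A, a ∈ P.O c → t ⬝ᵥ P.s₁ c a = 0 ∧ t' ⬝ᵥ P.s₁ c a = 0) ∧
    t ⬝ᵥ dv (P.s₁ c) e (α z) (Pi.single i 1) ≠ 0 ∧ t' ⬝ᵥ dv (P.s₁ c) e (α z) (Pi.single i 1) = 0 ∧
    t' ⬝ᵥ dv (P.s₁ c) e (α z) (Pi.single i' 1) ≠ 0

variable (b₀) in
/-- all the derivatives, tested against `ξ` -/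
def evF (D : Cm β →L[ℂ] Cm T.M) (l : Cm T.M) (y₁ u₁ u₁' : Cm P.N₁) (y₂ u₂ u₂' : Cm P.N₂) (t : ℂ)
    (ξ : Cm m) : Qs P T b₀ m →ₗ[ℂ] (Cm β × Cm β) × ℂ × ℂ × ℂ :=
  (evD b₀ D y₁ y₂ ξ).prod ((dotProductBilin ℂ ℂ ξ ∘ₗ ev₂ b₀ (kr y₂ l)).prod
    ((dotProductBilin ℂ ℂ ξ ∘ₗ ev b₀ (kr u₁ l) (kr u₂ l) t).prod
      (dotProductBilin ℂ ℂ ξ ∘ₗ ev b₀ (kr u₁' l) (kr u₂' l) t)))

theorem evF_apply (D : Cm β →L[ℂ] Cm T.M) (l : Cm T.M) (y₁ u₁ u₁' : Cm P.N₁) (y₂ u₂ u₂' : Cm P.N₂)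
    (t : ℂ) (ξ : Cm m) (q : Qs P T b₀ m) : evF b₀ D l y₁ u₁ u₁' y₂ u₂ u₂' t ξ q =
      ((fun k => ξ ⬝ᵥ ev₁ b₀ (kr y₁ (D (Pi.single k 1))) q,
        fun k => ξ ⬝ᵥ ev₂ b₀ (kr y₂ (D (Pi.single k 1))) q), ξ ⬝ᵥ ev₂ b₀ (kr y₂ l) q,
        ξ ⬝ᵥ (ev₁ b₀ (kr u₁ l) q - t • ev₂ b₀ (kr u₂ l) q),
        ξ ⬝ᵥ (ev₁ b₀ (kr u₁' l) q - t • ev₂ b₀ (kr u₂' l) q)) := rfl

theorem surj₆ (ok : P.Ok) {c : P.κ} {x : P.X.X} (hA : x ∈ P.A) (hx : x ∈ P.O c) {j : T.κ}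
    (hj : b₀ ∈ T.O j) {D : Cm β →L[ℂ] Cm T.M} (hD : ∀ v (c : ℂ), D v = c • T.l j b₀ → v = 0)
    {u₁ u₁' τ τ' : Cm P.N₁} (u₂ u₂' : Cm P.N₂) (t : ℂ) {ξ : Cm m} (hξ : ξ ≠ 0)
    (h0 : ∀ c, ∀ a ∈ P.A, a ∈ P.O c → τ ⬝ᵥ P.s₁ c a = 0 ∧ τ' ⬝ᵥ P.s₁ c a = 0)
    (h1 : τ ⬝ᵥ u₁ ≠ 0) (h2 : τ' ⬝ᵥ u₁ = 0) (h3 : τ' ⬝ᵥ u₁' ≠ 0) :
    Surjective (evF b₀ D (T.l j b₀) (P.s₁ c x) u₁ u₁' (P.s₂ c x) u₂ u₂' t ξ) := by
  set F := evF b₀ D (T.l j b₀) (P.s₁ c x) u₁ u₁' (P.s₂ c x) u₂ u₂' t ξ with hF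
  obtain ⟨g, hg⟩ := sep0 hξ
  rw [dotProduct_comm] at hg
  obtain ⟨ν, hν⟩ := sep0 (T.lf.nz j b₀ hj)
  have k1 : ∀ g₁ g₂, ∃ q, F q = ((g₁, g₂), 0, 0, 0) := fun g₁ g₂ => by
    obtain ⟨ν₁, a1, a2⟩ := ex_nu (T.lf.nz j b₀ hj) D hD g₁
    obtain ⟨ν₂, b1, b2⟩ := ex_nu (T.lf.nz j b₀ hj) D hD g₂
    obtain ⟨τ₁, c1⟩ := sep0 (ok.l₁.nz _ _ hx)
    obtain ⟨τ₂, c2⟩ := sep0 (ok.l₂.nz _ _ hx)
    obtain ⟨q, k, k'⟩ := ex_q (b₀ := b₀) τ₁ τ₂ ν₁ ν₂ g fun c a _ _ j' h => by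
      obtain ⟨u, hu⟩ := T.lf.chg j' j b₀ h hj
      simp [hu, a1, b1]
    exact ⟨q, by simp [hF, evF_apply, k, k', a1, a2, b1, b2, c1, c2, hg]⟩
  have k2 : ∀ r : ℂ, ∃ q, F q = (0, 0, 0, r) := fun r => by
    obtain ⟨q, k, k'⟩ := ex_q (b₀ := b₀) τ' 0 ν 0 ((r / τ' ⬝ᵥ u₁') • g) fun c a h h' j' _ => by
      simp [(h0 c a h h').2]
    exact ⟨q, by simp [hF, evF_apply, k, k', (h0 c x hA hx).2, h2, hν, hg, mul_div_cancel₀ _ h3,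
      Prod.ext_iff, funext_iff]⟩
  have k3 : ∀ r : ℂ, ∃ q r', F q = (0, 0, r, r') := fun r => by
    obtain ⟨q, k, k'⟩ := ex_q (b₀ := b₀) τ 0 ν 0 ((r / τ ⬝ᵥ u₁) • g) fun c a h h' j' _ => by
      simp [(h0 c a h h').1]
    exact ⟨q, (F q).2.2.2, by simp [hF, evF_apply, k, k', (h0 c x hA hx).1, hν, hg,
      mul_div_cancel₀ _ h1, Prod.ext_iff, funext_iff]⟩
  have k4 : ∀ r : ℂ, ∃ q, (F q).2.1 = r := fun r => by
    obtain ⟨t₁, t₂, h1, h2⟩ := ok.r₂ c x hx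
    obtain ⟨q, k, k'⟩ := ex_q (b₀ := b₀) t₁ t₂ ν ν ((r / t₂ ⬝ᵥ P.s₂ c x) • g)
      fun c a h h' j _ => by rw [h2 c a h h', mul_assoc]
    exact ⟨q, by simp [hF, evF_apply, k', hν, hg, mul_div_cancel₀ _ h1]⟩
  rintro ⟨⟨g₁, g₂⟩, r₁, r₂, r₃⟩
  obtain ⟨q₄, e₄⟩ := k4 r₁
  obtain ⟨q₁, e₁⟩ := k1 (g₁ - (F q₄).1.1) (g₂ - (F q₄).1.2)
  obtain ⟨q₃, r', e₃⟩ := k3 (r₂ - (F q₄).2.2.1)
  obtain ⟨q₂, e₂⟩ := k2 (r₃ - (F q₄).2.2.2 - r')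
  refine ⟨q₄ + q₁ + q₃ + q₂, ?_⟩
  rw [map_add, map_add, map_add, e₁, e₂, e₃]
  simp [Prod.ext_iff, e₄]

theorem dv_b₁ (ok : P.Ok) {c : P.κ} {x : P.X.X} (hx : x ∈ P.O c)
    {e : Chart d P.X.X} (he : At e x) {j : T.κ} (hj : b₀ ∈ T.O j) {e' : Chart β T.B.X}
    (he' : At e' b₀) (v : Cm d) :
    dv (X := ((P.X.prod T.B).prod T.B).X) (fun s => kr (P.s₁ c s.1.1) (T.l j s.1.2))
      ((P.X.prod T.B).pc T.B (P.X.pc T.B e e') e') ((x, b₀), b₀) (glue (glue v 0) 0) =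
      kr (dv (P.s₁ c) e x v) (T.l j b₀) := by
  have l := lo_of T.lf
  have h1 : At (P.X.pc T.B e e') (x, b₀) := at_prod he he'
  have k1 := lo_fst (lo_of ok.l₁) l
  have k2 := lo_snd (lo_of ok.l₁) l
  have a1 := dv_fst (x := ((x, b₀), b₀))
    (t := fun y : (P.X.prod T.B).X => kr (P.s₁ c y.1) (T.l j y.2)) e'
    ((lo_kr k1 k2).hol (c, j) (x, b₀) ⟨hx, hj⟩ _ h1) (glue (glue v 0) 0)
  have a2 := dv_kr (X := (P.X.prod T.B).X) (a := fun y => P.s₁ c y.1) (a' := fun y => T.l j y.2) h1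
    (k1.hol (c, j) (x, b₀) ⟨hx, hj⟩) (k2.hol (c, j) (x, b₀) ⟨hx, hj⟩) (glue v 0)
  have a3 := dv_fst (x := (x, b₀)) e' (ok.l₁.hol c x hx e he) (glue v 0)
  have a4 := dv_snd (x := (x, b₀)) e (T.lf.hol j b₀ hj e' he') (glue v 0)
  rw [fstP_glue] at a1 a3
  rw [sndP_glue] at a4
  have a5 := a4.trans (map_zero _)
  exact (a1.trans a2).trans ((congrArg₂ (fun u v => kr u (T.l j b₀) + kr (P.s₁ c x) v) a3 a5).trans
    ((congrArg _ (krL (P.s₁ c x)).map_zero).trans (add_zero _)))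

theorem dv_b₂ (ok : P.Ok) {c : P.κ} {x : P.X.X} (hx : x ∈ P.O c)
    {e : Chart d P.X.X} (he : At e x) {j : T.κ} (hj : b₀ ∈ T.O j) {e' : Chart β T.B.X}
    (he' : At e' b₀) (v : Cm d) :
    dv (X := ((P.X.prod T.B).prod T.B).X) (fun s => kr (P.s₂ c s.1.1) (T.l j s.2))
      ((P.X.prod T.B).pc T.B (P.X.pc T.B e e') e') ((x, b₀), b₀) (glue (glue v 0) 0) =
      kr (dv (P.s₂ c) e x v) (T.l j b₀) := by
  have l := lo_of T.lf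
  have h1 : At (P.X.pc T.B e e') (x, b₀) := at_prod he he'
  have h2 : At ((P.X.prod T.B).pc T.B (P.X.pc T.B e e') e') ((x, b₀), b₀) := at_prod h1 he'
  have k3 := lo_fst (lo_of ok.l₂) l
  have a1 := dv_kr (X := ((P.X.prod T.B).prod T.B).X) (a := fun y => P.s₂ c y.1.1)
    (a' := fun y => T.l j y.2) h2 ((lo_fst k3 l).hol ((c, j), j) ((x, b₀), b₀) ⟨⟨hx, hj⟩, hj⟩)
    ((lo_snd k3 l).hol ((c, j), j) ((x, b₀), b₀) ⟨⟨hx, hj⟩, hj⟩) (glue (glue v 0) 0)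
  have a2 := dv_fst (x := ((x, b₀), b₀)) (t := fun y : (P.X.prod T.B).X => P.s₂ c y.1) e'
    (k3.hol (c, j) (x, b₀) ⟨hx, hj⟩ _ h1) (glue (glue v 0) 0)
  have a3 := dv_fst (x := (x, b₀)) e' (ok.l₂.hol c x hx e he) (glue v 0)
  have a4 := dv_snd (V := P.X.prod T.B) (x := ((x, b₀), b₀)) (P.X.pc T.B e e')
    (T.lf.hol j b₀ hj e' he') (glue (glue v 0) 0)
  rw [fstP_glue] at a2 a3
  rw [sndP_glue] at a4
  have a5 := a4.trans (map_zero _)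
  exact a1.trans ((congrArg₂ (fun u v => kr u (T.l j b₀) + kr (P.s₂ c x) v) (a2.trans a3) a5).trans
    ((congrArg _ (krL (P.s₂ c x)).map_zero).trans (add_zero _)))

theorem tv_B (ok : P.Ok) (p : Qs P T b₀ m) {c : P.κ} {x : P.X.X} (hA : x ∈ P.A) (hx : x ∈ P.O c)
    {e : Chart d P.X.X} (he : At e x) {j : T.κ} (hj : b₀ ∈ T.O j) {e' : Chart β T.B.X}
    (he' : At e' b₀) (nz : p.1.2 (kr (P.s₂ c x) (T.l j b₀)) ≠ 0) (v v' : Cm d)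
    (h : ∀ ξ : Cm m, ξ ≠ 0 → evF b₀ (fderiv ℂ (fun z => T.l j (e'.symm z)) (e' b₀)) (T.l j b₀)
      (P.s₁ c x) (dv (P.s₁ c) e x v) (dv (P.s₁ c) e x v') (P.s₂ c x) (dv (P.s₂ c) e x v)
      (dv (P.s₂ c) e x v') (P.μ c x) ξ p ≠ 0) :
    TV (jo P T p.1.1 p.1.2) ((c, j), j) ((x, b₀), b₀)
      ((P.X.prod T.B).pc T.B (P.X.pc T.B e e') e') := by
  intro t ht
  obtain rfl : t = P.μ c x := smul_left_injective ℂ nz (ht.symm.trans (p.2 c x hA hx j hj))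
  let E := (P.X.prod T.B).pc T.B (P.X.pc T.B e e') e'
  let a₁ : ((P.X.prod T.B).prod T.B).X → _ := fun s => kr (P.s₁ c s.1.1) (T.l j s.1.2)
  let a₂ : ((P.X.prod T.B).prod T.B).X → _ := fun s => kr (P.s₂ c s.1.1) (T.l j s.2)
  let A : (Cm (d + β + β) × ℂ) →ₗ[ℂ] Cm m :=
    (p.1.1.toLinearMap ∘ₗ (fderiv ℂ (fun z => a₁ (E.symm z)) (E ((x, b₀), b₀))).toLinearMap -
      P.μ c x • p.1.2.toLinearMap ∘ₗ
        (fderiv ℂ (fun z => a₂ (E.symm z)) (E ((x, b₀), b₀))).toLinearMap).coprod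
      (-LinearMap.toSpanSingleton ℂ _ (p.1.2 (a₂ ((x, b₀), b₀))))
  have hA' : ∀ q, A q = p.1.1 (dv a₁ E ((x, b₀), b₀) q.1) - P.μ c x • p.1.2 (dv a₂ E ((x, b₀), b₀) q.1)
      - q.2 • p.1.2 (a₂ ((x, b₀), b₀)) := fun q => (sub_eq_add_neg _ _).symm
  refine (funext hA' : _ = _) ▸ surj_of_dual A fun ξ hξ => by_contra fun h0 => h ξ h0 ?_
  simp only [hA'] at hξ
  have z₁ := (krL (M := T.M) (P.s₁ c x)).map_zero
  have z₂ := (krL (M := T.M) (P.s₂ c x)).map_zero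
  refine Prod.ext (Prod.ext (funext fun i => ?_) (funext fun i => ?_)) (Prod.ext ?_ (Prod.ext ?_ ?_))
  · have := hξ (glue (glue 0 (Pi.single i 1)) 0, 0)
    rw [dv_a₁ ok hx he hj he', dv_a₂ ok hx he hj he', map_zero, show kr _ _ = _ from z₂, map_zero,
      smul_zero, sub_zero, zero_smul, sub_zero] at this
    exact this
  · have := hξ (glue (glue 0 0) (Pi.single i 1), 0)
    rw [dv_a₁ ok hx he hj he', dv_a₂ ok hx he hj he', map_zero, show kr _ _ = _ from z₁, map_zero,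
      zero_smul, sub_zero, zero_sub, dotProduct_neg, neg_eq_zero, dotProduct_smul] at this
    exact (smul_eq_zero.1 this).resolve_left (ok.μne c x hA hx)
  · have := hξ (0, 1)
    simp only [dv, map_zero, smul_zero, sub_zero, one_smul, zero_sub, dotProduct_neg,
      neg_eq_zero] at this
    exact this
  · have := hξ (glue (glue v 0) 0, 0)
    rw [dv_b₁ ok hx he hj he', dv_b₂ ok hx he hj he', zero_smul, sub_zero] at this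
    exact this
  · have := hξ (glue (glue v' 0) 0, 0)
    rw [dv_b₁ ok hx he hj he', dv_b₂ ok hx he hj he', zero_smul, sub_zero] at this
    exact this

theorem ex_ins (h : m ≠ 0) : ∃ (k : ℕ) (ins : Fin m → Cm k → Cm m), m = k + 1 ∧
    (∀ n z, AnalyticAt ℂ (ins n) z) ∧ ∀ ξ ≠ 0, ∃ (n : Fin m) (η : Cm k) (r : ℂ), r ≠ 0 ∧
      ins n η = r • ξ := by
  obtain _ | m := m
  · exact (h rfl).elim
  refine ⟨m, fun n η => Fin.insertNth n (1 : ℂ) η, rfl, fun n z => analyticAt_pi_iff.2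
    ((Fin.forall_iff_succAbove n).2 ⟨by simpa using analyticAt_const, fun i => by
      simpa using analyticAt_pi_iff.1 analyticAt_id i⟩), fun ξ hξ => ?_⟩
  obtain ⟨n, hn⟩ := Function.ne_iff.1 hξ
  refine ⟨n, Fin.removeNth n ((ξ n)⁻¹ • ξ), _, inv_ne_zero hn, ?_⟩
  rw [← inv_mul_cancel₀ hn]
  exact Fin.insertNth_self_removeNth n ((ξ n)⁻¹ • ξ)

theorem evF_smul (D : Cm β →L[ℂ] Cm T.M) (l : Cm T.M) (y₁ u₁ u₁' : Cm P.N₁) (y₂ u₂ u₂' : Cm P.N₂)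
    (t r : ℂ) (ξ : Cm m) (q : Qs P T b₀ m) : evF b₀ D l y₁ u₁ u₁' y₂ u₂ u₂' t (r • ξ) q =
      r • evF b₀ D l y₁ u₁ u₁' y₂ u₂ u₂' t ξ q := by
  simp only [evF_apply, smul_dotProduct]
  rfl

theorem gn5 (ok : P.Ok) {α : ℂ × ℂ → P.X.X} (nm : Nm P α) (h3 : m ≤ β + β + 1) (c : P.κ)
    (e : Chart d P.X.X) {j : T.κ} (hj : b₀ ∈ T.O j) {e' : Chart β T.B.X} (he' : At e' b₀) :
    ∀ᶠ p in gn (Qs P T b₀ m), ∀ x ∈ P.A, x ∈ P.O c → At e x →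
      p.1.2 (kr (P.s₂ c x) (T.l j b₀)) ≠ 0 → TV (jo P T p.1.1 p.1.2) ((c, j), j) ((x, b₀), b₀)
        ((P.X.prod T.B).pc T.B (P.X.pc T.B e e') e') := by
  by_cases m0 : m = 0
  · exact .of_forall fun p x _ _ _ h => (h (funext fun i => (m0 ▸ i).elim0)).elim
  obtain ⟨k, ins, hk, an_ins, sur⟩ := ex_ins m0
  let f₁ := fun z => P.s₁ c (e.symm z)
  let f₂ := fun z => P.s₂ c (e.symm z)
  have G5 := fun i : Fin m × Fin d × Fin d => avoidG (Q := Qs P T b₀ m)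
    (E := (ℂ × ℂ) × Cm k) (F := (Cm β × Cm β) × ℂ × ℂ × ℂ) (by simp; omega)
    fun z => evF b₀ (fderiv ℂ (fun z => T.l j (e'.symm z)) (e' b₀)) (T.l j b₀) (f₁ (e (α z.1)))
      (fderiv ℂ f₁ (e (α z.1)) (Pi.single i.2.1 1)) (fderiv ℂ f₁ (e (α z.1)) (Pi.single i.2.2 1))
      (f₂ (e (α z.1))) (fderiv ℂ f₂ (e (α z.1)) (Pi.single i.2.1 1))
      (fderiv ℂ f₂ (e (α z.1)) (Pi.single i.2.2 1)) (P.μ c (α z.1)) (ins i.1 z.2)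
  filter_upwards [eventually_all.2 G5] with p g5 x xA hx he nz
  obtain ⟨z, rfl⟩ := nm.rng x xA
  obtain ⟨r, r', τ, τ', t0, t1, t2, t3⟩ := nm.r4 _ z _ hx he
  refine tv_B ok p xA hx he hj he' nz (Pi.single r 1) (Pi.single r' 1) fun ξ hξ h0 => ?_
  obtain ⟨n, η, u, hu, e0⟩ := sur ξ hξ
  have a₁ : AnalyticAt ℂ f₁ (e (α z)) := ok.l₁.hol _ _ hx _ he
  have a₂ : AnalyticAt ℂ f₂ (e (α z)) := ok.l₂.hol _ _ hx _ he
  have w : AnalyticAt ℂ (fun y : (ℂ × ℂ) × Cm k => e (α y.1)) (z, η) := an1 (nm.hol z _ he)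
  have w₁ : AnalyticAt ℂ (fun y : (ℂ × ℂ) × Cm k => f₁ (e (α y.1))) (z, η) := a₁.comp_of_eq w rfl
  have w₂ : AnalyticAt ℂ (fun y : (ℂ × ℂ) × Cm k => f₂ (e (α y.1))) (z, η) := a₂.comp_of_eq w rfl
  have d₁ : ∀ v, AnalyticAt ℂ (fun y : (ℂ × ℂ) × Cm k => fderiv ℂ f₁ (e (α y.1)) v) (z, η) :=
    fun v => ((ContinuousLinearMap.apply ℂ (Cm P.N₁) v).analyticAt _).comp
      (a₁.fderiv.comp_of_eq w rfl)
  have d₂ : ∀ v, AnalyticAt ℂ (fun y : (ℂ × ℂ) × Cm k => fderiv ℂ f₂ (e (α y.1)) v) (z, η) :=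
    fun v => ((ContinuousLinearMap.apply ℂ (Cm P.N₂) v).analyticAt _).comp
      (a₂.fderiv.comp_of_eq w rfl)
  have w₃ : AnalyticAt ℂ (fun y : (ℂ × ℂ) × Cm k => P.μ c (α y.1)) (z, η) := an1 (nm.mu _ z hx)
  have kk := g5 (n, r, r') (z, η) fun q => by
    simp only [evF_apply]
    exact ((AnalyticAt.pi fun _ => an_dot (an2 (an_ins n _)) ((q.1.1.analyticAt _).comp
      (an_kr w₁ analyticAt_const))).prod (AnalyticAt.pi fun _ => an_dot (an2 (an_ins n _))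
      ((q.1.2.analyticAt _).comp (an_kr w₂ analyticAt_const)))).prod ((an_dot (an2 (an_ins n _))
      ((q.1.2.analyticAt _).comp (an_kr w₂ analyticAt_const))).prod ((an_dot (an2 (an_ins n _)) (an_ev
      (an_kr (d₁ _) analyticAt_const) (an_kr (d₂ _) analyticAt_const) w₃ q)).prod
      (an_dot (an2 (an_ins n _)) (an_ev (an_kr (d₁ _) analyticAt_const)
        (an_kr (d₂ _) analyticAt_const) w₃ q))))
  simp only [show f₁ (e (α z)) = _ from congrArg (P.s₁ c) he.left_inv,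
    show f₂ (e (α z)) = _ from congrArg (P.s₂ c) he.left_inv, e0] at kk
  exact kk (surj₆ ok xA hx hj (T.lf.imm _ _ hj _ he') _ _ _
    (smul_ne_zero hu hξ) t0 t1 t2 t3)
    ((evF_smul _ _ _ _ _ _ _ _ _ _ _ _).trans ((congrArg _ h0).trans (smul_zero _)))

theorem gen4 (ok : P.Ok) {α : ℂ × ℂ → P.X.X} (nm : Nm P α) (h1 : d + β < m) (h2 : d + 1 < m)
    (h3 : m ≤ β + β + 1)
    (h4 : d + d + (β + β) + 2 < m + m) : ∃ (p₁ : Cm (P.N₁ * T.M) →L[ℂ] Cm m)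
      (p₂ : Cm (P.N₂ * T.M) →L[ℂ] Cm m), (jo P T p₁ p₂).Gen ∧ Fit P T b₀ p₁ p₂ := by
  obtain ⟨ι, _, c, e, hc⟩ := fin_cover P.X ok.l₁.opn ok.l₁.cov
  obtain ⟨ι', _, j, e', hj⟩ := fin_cover T.B T.lf.opn T.lf.cov
  have pre := fun p₁ p₂ => seg d β m P T p₁ p₂ ok
  obtain ⟨ι₀, _, k, E, hk⟩ := fin_cover (jo (m := m) P T 0 0).S (pre 0 0).lo₁.opn (pre 0 0).lo₁.cov
  obtain ⟨i₀, hi₀, he₀⟩ := hj b₀
  let f₁ := fun i z => P.s₁ (c i) ((e i).symm z)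
  let f₂ := fun i z => P.s₂ (c i) ((e i).symm z)
  let l := fun i z => T.l (j i) ((e' i).symm z)
  have G1 := fun i : ι × ι' => avoidG (Q := Qs P T b₀ m) (E := Cm d × Cm β) (F := Cm m)
    (by simpa using h1)
    fun z => ev₁ (m := m) b₀ (kr (f₁ i.1 z.1) (l i.2 z.2))
  have G2 := fun i : ι × ι' => avoidG (Q := Qs P T b₀ m) (E := Cm d × Cm β) (F := Cm m)
    (by simpa using h1)
    fun z => ev₂ (m := m) b₀ (kr (f₂ i.1 z.1) (l i.2 z.2))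
  have G3 := fun i : ι => avoidG (Q := Qs P T b₀ m) (E := Cm d × ℂ) (F := Cm m) (by simpa using h2)
    fun z => ev (m := m) b₀ (kr (f₁ i z.1) (T.l (j i₀) b₀)) (kr (f₂ i z.1) (T.l (j i₀) b₀)) z.2
  have G4 := fun i : (ι × ι) × ι' × ι' =>
    avoidG (Q := Qs P T b₀ m) (E := ((Cm d × Cm d) × Cm β × Cm β) × ℂ × ℂ) (F := Cm m × Cm m) (by simpa using h4)
      fun z =>
      (ev (m := m) b₀ (kr (f₁ i.1.1 z.1.1.1) (l i.2.1 z.1.2.1))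
        (kr (f₂ i.1.1 z.1.1.1) (l i.2.2 z.1.2.2)) z.2.1).prod
      (ev (m := m) b₀ (kr (f₁ i.1.2 z.1.1.2) (l i.2.1 z.1.2.1))
        (kr (f₂ i.1.2 z.1.1.2) (l i.2.2 z.1.2.2)) z.2.2)
  have G5 := fun i : ι => gn5 ok nm h3 (c i) (e i) hi₀ he₀
  have G6 := fun i : ι₀ => transG (Q := Qs P T b₀ m) (F := Cm m) (E := Cm (d + β + β) × ℂ) fun z =>
    ev (m := m) b₀ ((jo (m := m) P T 0 0).a₁ (k i) ((E i).symm z.1))
      ((jo (m := m) P T 0 0).a₂ (k i) ((E i).symm z.1)) z.2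
  obtain ⟨p, ⟨⟨g1, g2⟩, g3, g4⟩, g5, g6⟩ := ((((eventually_all.2 G1).and (eventually_all.2 G2)).and
    ((eventually_all.2 G3).and (eventually_all.2 G4))).and
    ((eventually_all.2 G5).and (eventually_all.2 G6))).exists
  clear G1 G2 G3 G4 G5 G6
  have a₁ : ∀ {i x}, x ∈ P.O (c i) ∧ At (e i) x → AnalyticAt ℂ (f₁ i) (e i x) ∧
      AnalyticAt ℂ (f₂ i) (e i x) ∧ f₁ i (e i x) = P.s₁ (c i) x ∧ f₂ i (e i x) = P.s₂ (c i) x :=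
    fun h => ⟨ok.l₁.hol _ _ h.1 _ h.2, ok.l₂.hol _ _ h.1 _ h.2, congrArg _ h.2.left_inv,
      congrArg _ h.2.left_inv⟩
  have a₂ : ∀ {i b}, b ∈ T.O (j i) ∧ At (e' i) b → AnalyticAt ℂ (l i) (e' i b) ∧
      l i (e' i b) = T.l (j i) b := fun h => ⟨T.lf.hol _ _ h.1 _ h.2, congrArg _ h.2.left_inv⟩
  have nz₁ : ∀ c' x j' b, x ∈ P.O c' → b ∈ T.O j' → p.1.1 (kr (P.s₁ c' x) (T.l j' b)) ≠ 0 := by
    intro c' x j' b hx hb h0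
    obtain ⟨i, hi⟩ := hc x
    obtain ⟨i', hi'⟩ := hj b
    obtain ⟨u, hu⟩ := ok.l₁.chg _ _ x hi.1 hx
    obtain ⟨u', hu'⟩ := T.lf.chg _ _ b hi'.1 hb
    refine g1 (i, i') (e i x, e' i' b) (fun q => (q.1.1.analyticAt _).comp (an_kr
      (an1 (a₁ hi).1) (an2 (a₂ hi').1))) ?_ ?_ <;> simp only [(a₁ hi).2.2.1, (a₂ hi').2]
    · exact surj₁ ok hi.1 (T.lf.nz _ _ hi'.1)
    · show p.1.1 _ = 0
      rw [hu, hu', kr_smul, map_smul, h0, smul_zero]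
  have nz₂ : ∀ c' x j' b, x ∈ P.O c' → b ∈ T.O j' → p.1.2 (kr (P.s₂ c' x) (T.l j' b)) ≠ 0 := by
    intro c' x j' b hx hb h0
    obtain ⟨i, hi⟩ := hc x
    obtain ⟨i', hi'⟩ := hj b
    obtain ⟨u, hu⟩ := ok.l₂.chg _ _ x hi.1 hx
    obtain ⟨u', hu'⟩ := T.lf.chg _ _ b hi'.1 hb
    refine g2 (i, i') (e i x, e' i' b) (fun q => (q.1.2.analyticAt _).comp (an_kr
      (an1 (a₁ hi).2.1) (an2 (a₂ hi').1))) ?_ ?_ <;> simp only [(a₁ hi).2.2.2, (a₂ hi').2]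
    · exact surj₂ ok hi.1 (T.lf.nz _ _ hi'.1)
    · show p.1.2 _ = 0
      rw [hu, hu', kr_smul, map_smul, h0, smul_zero]
  have hA : ∀ x, ((x, b₀), b₀) ∈ (jo P T p.1.1 p.1.2).Z → x ∈ P.A := by
    intro x hx
    by_contra hA
    obtain ⟨i, hi⟩ := hc x
    obtain ⟨t, ht⟩ := hx ((c i, j i₀), j i₀) ⟨⟨hi.1, hi₀⟩, hi₀⟩
    refine g3 i (e i x, t) (an_ev (an_kr (an1 (a₁ hi).1)
      analyticAt_const) (an_kr (an1 (a₁ hi).2.1) analyticAt_const)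
      analyticAt_snd) ?_ ?_ <;> simp only [(a₁ hi).2.2.1, (a₁ hi).2.2.2]
    · exact surj₃ ok hi.1 hi₀ hi₀ (.inr hA) fun h => hA h.1
    · exact sub_eq_zero.2 ht
  refine ⟨p.1.1, p.1.2, ⟨fun b s hs => nz₁ _ _ _ _ hs.1.1 hs.1.2,
    fun b s hs => nz₂ _ _ _ _ hs.1.1 hs.2, fun b s hs t E' hE' => ?_⟩, p.2, fun x x' b b' hx hx' => ?_⟩
  · revert t
    obtain ⟨⟨x, b₁⟩, b₂⟩ := s
    by_cases hs0 : x ∈ P.A ∧ b₁ = b₀ ∧ b₂ = b₀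
    · obtain ⟨xA, rfl, rfl⟩ := hs0
      obtain ⟨i, hi⟩ := hc x
      exact (g5 i x xA hi.1 hi.2 (nz₂ _ _ _ _ hi.1 hi₀)).chg (pre _ _) ⟨⟨hi.1, hi₀⟩, hi₀⟩ hs
        (at_prod (at_prod hi.2 he₀) he₀) hE'
    · obtain ⟨i, hi, hE⟩ := hk ((x, b₁), b₂)
      refine TV.chg (pre p.1.1 p.1.2) hi hs hE hE' fun t ht =>
        tv_off (jo P T p.1.1 p.1.2) (pre _ _) hi hE ?_
      have k := g6 i (E i ((x, b₁), b₂), t) (an_ev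
        (an1 ((pre 0 0).lo₁.hol _ _ hi _ hE))
        (an1 ((pre 0 0).lo₂.hol _ _ hi _ hE)) analyticAt_snd)
      simp only [hE.left_inv] at k
      exact k (surj₃ ok hi.1.1 hi.1.2 hi.2 (.inl fun h0 => nz₁ _ _ _ _ hi.1.1 hi.1.2
        (ht.trans (by rw [h0, zero_smul]))) hs0) (sub_eq_zero.2 ht)
  · by_cases hb : b = b₀ ∧ b' = b₀
    · obtain ⟨rfl, rfl⟩ := hb
      exact .inr ⟨hA x hx, hA x' hx', rfl, rfl⟩
    refine .inl (by_contra fun hne => ?_)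
    obtain ⟨i, hi⟩ := hc x
    obtain ⟨i', hi'⟩ := hc x'
    obtain ⟨r, hr⟩ := hj b
    obtain ⟨r', hr'⟩ := hj b'
    obtain ⟨t, ht⟩ := hx ((c i, j r), j r') ⟨⟨hi.1, hr.1⟩, hr'.1⟩
    obtain ⟨t', ht'⟩ := hx' ((c i', j r), j r') ⟨⟨hi'.1, hr.1⟩, hr'.1⟩
    refine g4 ((i, i'), r, r') (((e i x, e i' x'), e' r b, e' r' b'), t, t') (fun q =>
      (an_ev (an_kr (an1 (an1 (an1 (a₁ hi).1))) (an1 (an2 (an1 (a₂ hr).1))))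
        (an_kr (an1 (an1 (an1 (a₁ hi).2.1))) (an1 (an2 (an2 (a₂ hr').1))))
        (an2 analyticAt_fst) q).prod
      (an_ev (an_kr (an1 (an1 (an2 (a₁ hi').1))) (an1 (an2 (an1 (a₂ hr).1))))
        (an_kr (an1 (an1 (an2 (a₁ hi').2.1))) (an1 (an2 (an2 (a₂ hr').1))))
        (an2 analyticAt_snd) q)) ?_ ?_ <;>
      simp only [(a₁ hi).2.2.1, (a₁ hi).2.2.2, (a₁ hi').2.2.1, (a₁ hi').2.2.2, (a₂ hr).2, (a₂ hr').2]
    · exact surj₄ ok hi.1 hi'.1 hne hr.1 hr'.1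
        (fun h0 => nz₁ _ _ _ _ hi.1 hr.1 (ht.trans (by rw [h0, zero_smul])))
        (fun h0 => nz₁ _ _ _ _ hi'.1 hr.1 (ht'.trans (by rw [h0, zero_smul]))) hb
    · exact Prod.ext (sub_eq_zero.2 ht) (sub_eq_zero.2 ht')

end Vale.Agent.N300X
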