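import Vale.Agent.N300X.End
import Vale.Agent.N300X.Defs

/-!
# N300X: the properties of the universal covering
-/

set_option linter.all false

open scoped Manifold ContDiff Topology
open Set Filter Function
open Vale.Agent.P300 Vale.Agent.P300LS Vale.Agent.P300LN

noncomputable section

namespace Vale.Agent.N300X

variable {E : Type} [NormedAddCommGroup E] [NormedSpace ℂ E] {Y V : Type} [TopologicalSpace Y]
  [ChartedSpace E Y] [TopologicalSpace V] [ChartedSpace E V] {p : V → Y}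

theorem ncc_of [T2Space V] (h : NoCurve E V) : NoCompactCurve E V := by
  intro C _ _ _ _ _ f hf a b
  have c := hf.continuous
  refine by_contra fun ne => (isPreconnected_range c).infinite_of_nontrivial
    ⟨_, ⟨a, rfl⟩, _, ⟨b, rfl⟩, ne⟩ (h _ (isCompact_range c) fun k _ U hU => ?_)
  have k1 : ∀ x, f x = k → ∀ᶠ y in 𝓝 x, f y ∈ U := fun x hx => by
    let e := chartAt ℂ x
    have ex : x ∈ e.source := mem_chart_source _ x
    have d : ContMDiffAt 𝓘(ℂ) 𝓘(ℂ) ω e.symm (e x + 0) := by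
      rw [add_zero]
      exact contMDiffOn_chart_symm.contMDiffAt (e.open_target.mem_nhds (e.map_source ex))
    have t : Tendsto (fun y => e y - e x) (𝓝 x) (𝓝 0) := by
      rw [← sub_self (e x)]
      exact (e.continuousAt ex).tendsto.sub_const _
    filter_upwards [t.eventually (hU (fun s => f (e.symm (e x + s))) ⟨by
      simp only [add_zero, e.left_inv ex, hx], (hf _).comp 0 (ContMDiffAt.comp
        (f := fun s : ℂ => e x + s) 0 d (contDiffAt_const.add contDiffAt_id).contMDiffAt),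
        .of_forall fun s => ⟨_, rfl⟩⟩), e.open_source.mem_nhds ex] with y h1 h2
    rwa [add_sub_cancel, e.left_inv h2] at h1
  have k2 := ((isOpen_interior (s := f ⁻¹' U)).isClosed_compl.isCompact.image c).isClosed
  filter_upwards [self_mem_nhdsWithin, mem_nhdsWithin_of_mem_nhds (k2.isOpen_compl.mem_nhds
    (x := k) fun ⟨x, h1, h2⟩ => h1 (mem_interior_iff_mem_nhds.2 (k1 x h2)))]
  rintro _ ⟨y, rfl⟩ hy
  exact interior_subset (s := f ⁻¹' U) (by_contra fun n => hy ⟨y, n, rfl⟩)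

theorem plane [T2Space Y] (D : End E Y) (hp : Final.IsUniversalCovering E p) :
    ∃ Φ, IsFlatPlane E p Φ := by
  obtain ⟨k, hk⟩ := hp.covering.2.1 (D.Ψ 0)
  obtain ⟨Φ, h, -⟩ := ex_lf hp.covering.1 D.hol.continuous hk
  have hol := lf_hol hp.covering.2.2 h D.hol
  refine ⟨Φ, hol, fun z => ?_, fun K hK sub => ?_, fun g hg z w =>
    (lf_const D hp h hg z).trans (lf_const D hp h hg w).symm, fun z w => ?_⟩
  · have i := D.imm z
    rw [← (funext h.2 : p ∘ Φ = D.Ψ), mfderiv_comp z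
      ((hp.covering.2.2.contMDiff _).mdifferentiableAt (by simp))
      ((hol z).mdifferentiableAt (by simp))] at i
    exact Injective.of_comp i
  · have c := hK.inter_right ((isClosed_singleton (x := D.Ψ 0)).preimage hp.covering.1.continuous)
    obtain ⟨a, ha⟩ := D.ne1
    refine infinite_of_injective_forall_mem (f := fun n : ℕ => Φ (vec (n • (a, 0))))
      (fun n m e => ?_) (fun n => ?_) (fin_of c fun x hx => ?_)
    · have := lf_re D hp h e
      rw [ell_re, ell_re, map_nsmul, map_nsmul, Int.cast_inj, nsmul_eq_mul, nsmul_eq_mul] at this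
      exact_mod_cast (mul_right_cancel₀ ha this).symm
    · exact ⟨sub ⟨_, rfl⟩, (h.2 _).trans ((D.eq _ _).2 ⟨_, (zero_add _).symm⟩).symm⟩
    · exact loc_eq hp.covering.1 (tendsto_id.mono_left nhdsWithin_le_nhds) tendsto_const_nhds
        (eventually_nhdsWithin_of_forall fun y hy => hy.2.trans hx.2.symm)
  · rw [h.2, h.2, D.eq]
    exact ⟨fun ⟨g, e⟩ => ⟨_, _, _, _, e⟩, fun ⟨a, b, c, d, e⟩ => ⟨((a, b), (c, d)), e⟩⟩

theorem main {n : ℕ} (hn : 4 ≤ n) :
    ∃ (X : Type) (_ : TopologicalSpace X) (_ : ChartedSpace (Fin n → ℂ) X),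
      IsVariety (Fin n → ℂ) X ∧ Large.HasLargeFundamentalGroup (Fin n → ℂ) X ∧
      (∃ (V : Type) (_ : TopologicalSpace V) (_ : ChartedSpace (Fin n → ℂ) V) (p : V → X),
        Final.IsUniversalCovering (Fin n → ℂ) p) ∧
      ∀ (V : Type) (_ : TopologicalSpace V) (_ : ChartedSpace (Fin n → ℂ) V) (p : V → X),
        Final.IsUniversalCovering (Fin n → ℂ) p → ¬ HolomorphicallyConvex (Fin n → ℂ) V ∧
          NoCompactCurve (Fin n → ℂ) V ∧ ∃ Φ, IsFlatPlane (Fin n → ℂ) p Φ := by
  obtain ⟨Y, c, pr, ⟨D⟩⟩ := core4 hn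
  obtain ⟨V, tV, cV, p, v1, v2, v3, -, -, v4, -⟩ :=
    P300.H903.exists_universalCover (E := Fin n → ℂ) Y.X
  have hp : Final.IsUniversalCovering (Fin n → ℂ) p := ⟨v1, v2, v3, v4⟩
  exact ⟨Y.X, Y.top, Y.ch, ⟨Y.mf, Y.t2, Y.cpt, c, pr⟩, large n Y.X V p v4 (no_curve D hp),
    ⟨V, tV, cV, p, hp⟩, fun W _ _ q hq => have := hq.t2Space
      ⟨not_convex D hq, ncc_of (no_curve D hq), plane D hq⟩⟩

end Vale.Agent.N300X
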