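import Vale.Agent.P300LH.Seg
import Vale.Agent.P300LC.Pol
import Mathlib.RingTheory.MvPolynomial.EulerIdentity

/-!
# N300X: Veronese embeddings of the surfaces
-/

set_option linter.all false

open scoped Manifold ContDiff Topology Matrix
open Set Filter
open Vale.Agent.P272.K (Cm Chart At)
open Vale.Agent.P281Z Vale.Agent.P300L Vale.Agent.P300LH
open Vale.Agent.P280Z.Gp (Lifts)
open Vale.Agent.P300LZ (Surf Same lat)
open Vale.Agent.P300LC (ev Pn)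

noncomputable section

namespace Vale.Agent.N300X

/-- the dimension of a tensor power -/
def dm (N : ℕ) : ℕ → ℕ
  | 0 => 1
  | k + 1 => dm N k * N

/-- the tensor power of a vector -/
def pw {N : ℕ} (v : Cm N) : (k : ℕ) → Cm (dm N k)
  | 0 => fun _ => 1
  | k + 1 => kr (pw v k) v

variable {N M : ℕ}

theorem pw_succ (v : Cm N) (k : ℕ) : pw v (k + 1) = kr (pw v k) v := rfl

theorem dot_pw_zero (t : Cm (dm N 0)) (v : Cm N) : t ⬝ᵥ pw v 0 = t (0 : Fin 1) :=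
  (Fin.sum_univ_one fun i : Fin 1 => t i * 1).trans (mul_one _)

theorem pw_dot (t v : Cm N) : ∀ k, pw t k ⬝ᵥ pw v k = (t ⬝ᵥ v) ^ k
  | 0 => (dot_pw_zero _ _).trans (pow_zero _).symm
  | k + 1 => (kr_dot _ _ _ _).trans (by rw [pw_dot t v k, pow_succ])

theorem pw_smul (c : ℂ) (v : Cm N) : ∀ k, pw (c • v) k = c ^ k • pw v k
  | 0 => by rw [pow_zero, one_smul]; rfl
  | k + 1 => by rw [pw_succ, pw_smul c v k, pw_succ, pow_succ]; exact kr_smul _ _ _ _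

theorem same_pw {y y' : Cm N} {w w' : Cm M} {F F' : ℂ} (h : Same y y' (F • w) (F' • w')) (k : ℕ) :
    Same (pw y k) (pw y' k) (F ^ k • pw w k) (F' ^ k • pw w' k) := by
  obtain ⟨e, h1, h2⟩ := h
  exact ⟨e ^ k, by rw [h1, pw_smul], by rw [← pw_smul, h2, pw_smul, pw_smul]⟩

/-- a homogeneous polynomial is a linear form on the tensor power -/
theorem ex_form : ∀ (k : ℕ) (G : Pn N), G.IsHomogeneous k → ∃ t : Cm (dm N k), ∀ v,
    t ⬝ᵥ pw v k = ev G v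
  | 0, G, h => by
    rw [← MvPolynomial.totalDegree_zero_iff_isHomogeneous,
      MvPolynomial.totalDegree_eq_zero_iff_eq_C] at h
    exact ⟨fun _ => G.coeff 0, fun v => by rw [dot_pw_zero, ev, h]; simp⟩
  | k + 1, G, h => by
    choose t ht using fun i => ex_form k _ (h.pderiv (i := i))
    refine ⟨((k + 1 : ℕ) : ℂ)⁻¹ • ∑ i, kr (t i) (Pi.single i 1), fun v => ?_⟩
    have e := congrArg (MvPolynomial.eval v) h.sum_X_mul_pderiv
    rw [map_sum, nsmul_eq_mul, map_mul, map_natCast] at e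
    have e' : (∑ i, kr (t i) (Pi.single i 1)) ⬝ᵥ kr (pw v k) v = ((k + 1 : ℕ) : ℂ) * ev G v := by
      rw [sum_dotProduct, ev, ← e]
      exact Finset.sum_congr rfl fun i _ => by
        rw [kr_dot, ht, map_mul, MvPolynomial.eval_X, single_one_dotProduct, mul_comm, ev]
    exact (smul_dotProduct _ _ _).trans ((congrArg (_ * ·) e').trans
      (inv_mul_cancel_left₀ (Nat.cast_ne_zero.2 k.succ_ne_zero) _))

section
variable {n : ℕ} {X : Type} [TopologicalSpace X] [ChartedSpace (Cm n) X] {κ : Type}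
  {O : κ → Set X} {a : κ → X → Cm N}

theorem lo_pw (h : Lo n O a) : ∀ k, Lo n O fun b x => pw (a b x) k
  | 0 => ⟨h.opn, h.cov, fun _ _ _ _ _ => analyticAt_const,
      fun _ _ _ e => one_ne_zero (congrFun e (0 : Fin 1)), fun _ _ _ _ _ => ⟨1, (one_smul _ _).symm⟩⟩
  | k + 1 => lo_kr (lo_pw h k) h

theorem lifts_pw (h : Lifts n O a) (k : ℕ) : Lifts n O fun b x => pw (a b x) (k + 1) :=
  lifts_kr (lo_pw (lo_of h) k) (lo_of h) (fun b b' x x' c c' _ k => h.inj b b' x x' c c' k)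
    fun b x c e he ξ _ ⟨r, k⟩ => h.imm b x c e he ξ r k

end

/-- the same surface with the Veronese embeddings of degree `k + 1` -/
def ver {τ : ℂ} (P : Surf τ) (k : ℕ) : Surf τ where
  X := P.X
  κ := P.κ
  O := P.O
  N₁ := dm P.N₁ (k + 1)
  N₂ := dm P.N₂ (k + 1)
  s₁ b x := pw (P.s₁ b x) (k + 1)
  s₂ b x := pw (P.s₂ b x) (k + 1)
  l₁ := lifts_pw P.l₁ k
  l₂ := lifts_pw P.l₂ k
  Φ := P.Φ
  cont := P.cont
  hol := P.hol
  inj := P.inj
  μ b x := P.μ b x ^ (k + 1)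
  μhol b z h := ⟨fun e he => ((P.μhol b z h).1 e he).fun_pow _, pow_ne_zero _ (P.μhol b z h).2⟩
  μchg b b' z h h' := same_pw (P.μchg b b' z h h') _
  r₁ b x h := by
    obtain ⟨t₁, t₂, h1, h2⟩ := P.r₁ b x h
    exact ⟨pw t₁ _, pw t₂ _, (pw_dot _ _ _).trans_ne (pow_ne_zero _ h1), fun c z hz => by
      rw [pw_dot, pw_dot, h2 c z hz, mul_pow]⟩
  r₂ b x h := by
    obtain ⟨t₁, t₂, h1, h2⟩ := P.r₂ b x h
    exact ⟨pw t₁ _, pw t₂ _, (pw_dot _ _ _).trans_ne (pow_ne_zero _ h1), fun c z hz => by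
      rw [pw_dot, pw_dot, h2 c z hz, mul_pow]⟩
  r₃ b x h n := by
    obtain ⟨t₁, h1, h2⟩ := P.r₃ b x h n
    exact ⟨pw t₁ _, (pw_dot _ _ _).trans_ne (pow_ne_zero _ h1), fun c z hz => by
      rw [pw_dot, h2 c z hz, zero_pow k.succ_ne_zero]⟩
  Xh := P.Xh
  q := P.q
  cov := P.cov
  Φh := P.Φh
  q_Φh := P.q_Φh
  per := P.per
  null := P.null
  φ := ((k + 1 : ℕ) : ℤ) • P.φ
  φne := by
    obtain ⟨g, hg⟩ := DFunLike.ne_iff.1 P.φne
    exact DFunLike.ne_iff.2 ⟨g, mul_ne_zero (Int.natCast_ne_zero.2 k.succ_ne_zero) hg⟩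
  triv K hK := by
    obtain ⟨F, l, h1, h2, h3, h4, h5⟩ := P.triv K hK
    refine ⟨fun b y => F b y ^ (k + 1), ⟨fun z => (k + 1 : ℕ) * l z, by fun_prop⟩,
      fun b => (h1 b).pow _, fun b x hx hb => pow_ne_zero _ (h2 b x hx hb),
      fun b b' x hx hb hb' => same_pw (h3 b b' x hx hb hb') _, fun b z hb hz => ?_, fun z g => ?_⟩
    · show P.μ b (P.Φ z) ^ (k + 1) = Complex.exp ((k + 1 : ℕ) * l z) * F b (P.Φh z) ^ (k + 1)
      rw [Complex.exp_nat_mul, h4 b z hb hz, mul_pow]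
    · show ((k + 1 : ℕ) : ℂ) * l (z + _) =
        (k + 1 : ℕ) * l z + _ * ((((k + 1 : ℕ) : ℤ) * P.φ g : ℤ) : ℂ)
      rw [h5]
      push_cast
      ring

/-- the elliptic curve is cut out by hyperplanes to the first order -/
def R4 {τ : ℂ} (P : Surf τ) : Prop :=
  ∀ b z (e : Chart 2 P.X.X), P.Φ z ∈ P.O b → At e (P.Φ z) → ∃ (t : Cm P.N₁) (i : Fin 2),
    (∀ c w, P.Φ w ∈ P.O c → t ⬝ᵥ P.s₁ c (P.Φ w) = 0) ∧
      t ⬝ᵥ dv (P.s₁ b) e (P.Φ z) (Pi.single i 1) ≠ 0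

end Vale.Agent.N300X
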